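import Vale.Agent.P141.FACE2

/-! `Vale.P141.face3_main` is proved in FACE2.lean. -/
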